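import Vale.Agent.P144S.W.Basic

/-!
The Wick rule for the dual free model on the graph of the cells.
-/

namespace Vale.Agent.P144S.W

open Finset Vale.Agent.P144
open Vale.Agent.P144.AL (Cn cnr tauR theA cutS el fcs sps sw chiM mem_cnr ep et Pf prod_H prod_V
  chiM_sq cutF_sq tauR_add fcs_erase sps_erase prod_et map_split el_erase lin_sum cutS_sq fcs_cons
  sps_cons)

/-- The spinor of the fermions `l` in the natural gauge. -/
noncomputable def Xl (P : Finset Site) (R : Multiset Site) (l : List Cn) (c : Cn) : ℝ :=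
  if c.1 ∈ Vx P then QQ P (c.2 ::ₘ (fcs l + R)) (c.1 ::ₘ sps l) / QQ P R 0 else 0

/-- The spinor without the cuts of the fermions. -/
noncomputable def Tl (P : Finset Site) (R : Multiset Site) (l : List Cn) (c : Cn) : ℝ :=
  (l.map (ep c)).prod * Xl P R l c

/-- The same, as seen from the horizontal edges. -/
noncomputable def Sl (P : Finset Site) (R : Multiset Site) (l : List Cn) (c : Cn) : ℝ :=
  (l.map (et c)).prod * Xl P R l c

theorem Xl_V {P : Finset Site} (R : Multiset Site) (l : List Cn) (hl : ∀ c ∈ l, c.1 ∈ Vx P)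
    {i j : ℤ} (h : ((i, j) : Site) ∈ P ∨ ((i, j + 1) : Site) ∈ P) :
    Xl P R l ((i, j + 1), (i, j)) = √2 * Xl P R l ((i, j + 1), (i, j + 1)) -
      tauR (fcs l + R) (i, j) * Xl P R l ((i + 1, j + 1), (i, j + 1)) ∧
    Xl P R l ((i + 1, j + 1), (i, j)) = √2 * Xl P R l ((i + 1, j + 1), (i, j + 1)) -
      tauR (fcs l + R) (i, j) * Xl P R l ((i, j + 1), (i, j + 1)) := by
  have hA : ∀ v ∈ sps l, v ∈ Vx P := by
    intro v hv
    obtain ⟨c, hc, rfl⟩ := List.mem_map.1 (Multiset.mem_coe.1 hv)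
    exact hl c hc
  have := (spr P (fcs l + R) _ (QQ P R 0) hA).V i j h
  exact this

theorem Xl_V0 {P : Finset Site} (R : Multiset Site) (l : List Cn) (hl : ∀ c ∈ l, c.1 ∈ Vx P)
    {i j : ℤ} (h : ((i, j) : Site) ∉ P) (h' : ((i, j + 1) : Site) ∉ P) :
    Xl P R l ((i, j + 1), (i, j)) = Xl P R l ((i, j + 1), (i, j + 1)) ∧
    Xl P R l ((i + 1, j + 1), (i, j)) = Xl P R l ((i + 1, j + 1), (i, j + 1)) := by
  have hA : ∀ v ∈ sps l, v ∈ Vx P := by
    intro v hv
    obtain ⟨c, hc, rfl⟩ := List.mem_map.1 (Multiset.mem_coe.1 hv)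
    exact hl c hc
  exact (spr P (fcs l + R) _ (QQ P R 0) hA).V0 i j h h'

theorem Xl_H {P : Finset Site} (R : Multiset Site) (l : List Cn) (hl : ∀ c ∈ l, c.1 ∈ Vx P)
    {i j : ℤ} (h : ((i, j) : Site) ∈ P ∨ ((i + 1, j) : Site) ∈ P) :
    Xl P R l ((i + 1, j), (i, j)) = theA (sps l) (i, j) * (√2 * Xl P R l ((i + 1, j), (i + 1, j)) -
      Xl P R l ((i + 1, j + 1), (i + 1, j))) ∧
    Xl P R l ((i + 1, j + 1), (i, j)) = -(theA (sps l) (i, j) *
      (√2 * Xl P R l ((i + 1, j + 1), (i + 1, j)) - Xl P R l ((i + 1, j), (i + 1, j)))) := by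
  have hA : ∀ v ∈ sps l, v ∈ Vx P := by
    intro v hv
    obtain ⟨c, hc, rfl⟩ := List.mem_map.1 (Multiset.mem_coe.1 hv)
    exact hl c hc
  exact (spr P (fcs l + R) _ (QQ P R 0) hA).H i j h

theorem Xl_H0 {P : Finset Site} (R : Multiset Site) (l : List Cn) (hl : ∀ c ∈ l, c.1 ∈ Vx P)
    {i j : ℤ} (h : ((i, j) : Site) ∉ P) (h' : ((i + 1, j) : Site) ∉ P) :
    Xl P R l ((i + 1, j), (i, j)) = theA (sps l) (i, j) * Xl P R l ((i + 1, j), (i + 1, j)) ∧
    Xl P R l ((i + 1, j + 1), (i, j)) = -(theA (sps l) (i, j) *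
      Xl P R l ((i + 1, j + 1), (i + 1, j))) := by
  have hA : ∀ v ∈ sps l, v ∈ Vx P := by
    intro v hv
    obtain ⟨c, hc, rfl⟩ := List.mem_map.1 (Multiset.mem_coe.1 hv)
    exact hl c hc
  exact (spr P (fcs l + R) _ (QQ P R 0) hA).H0 i j h h'

/-- Horizontal relations of `Tl`. -/
theorem Tl_H {P : Finset Site} (R : Multiset Site) (l : List Cn)
    (hl : ∀ c ∈ l, c.1 ∈ cnr c.2 ∧ c.1 ∈ Vx P) {i j : ℤ} (h : ((i, j) : Site) ∈ P ∨ ((i + 1, j) : Site) ∈ P) :
    Tl P R l ((i + 1, j), (i, j)) = √2 * Tl P R l ((i + 1, j), (i + 1, j)) -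
      Tl P R l ((i + 1, j + 1), (i + 1, j)) ∧
    Tl P R l ((i + 1, j + 1), (i, j)) = -(√2 * Tl P R l ((i + 1, j + 1), (i + 1, j)) -
      Tl P R l ((i + 1, j), (i + 1, j))) := by
  obtain ⟨p1, p2, p3⟩ := prod_H l (fun c hc => (hl c hc).1) i j
  obtain ⟨e1, e2⟩ := Xl_H R l (fun c hc => (hl c hc).2) h
  have t := chiM_sq (sw i j) (sps l)
  have t' : theA (sps l) (i, j) * theA (sps l) (i, j) = 1 := t
  unfold Tl
  rw [p1, p2, p3, e1, e2]
  constructor
  · linear_combination ((l.map (ep ((i + 1, j), (i + 1, j)))).prod *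
      (√2 * Xl P R l ((i + 1, j), (i + 1, j)) - Xl P R l ((i + 1, j + 1), (i + 1, j)))) * t'
  · linear_combination (-((l.map (ep ((i + 1, j), (i + 1, j)))).prod *
      (√2 * Xl P R l ((i + 1, j + 1), (i + 1, j)) - Xl P R l ((i + 1, j), (i + 1, j))))) * t'

theorem Tl_H0 {P : Finset Site} (R : Multiset Site) (l : List Cn)
    (hl : ∀ c ∈ l, c.1 ∈ cnr c.2 ∧ c.1 ∈ Vx P) {i j : ℤ} (h : ((i, j) : Site) ∉ P) (h' : ((i + 1, j) : Site) ∉ P) :
    Tl P R l ((i + 1, j), (i, j)) = Tl P R l ((i + 1, j), (i + 1, j)) ∧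
    Tl P R l ((i + 1, j + 1), (i, j)) = -Tl P R l ((i + 1, j + 1), (i + 1, j)) := by
  obtain ⟨p1, p2, p3⟩ := prod_H l (fun c hc => (hl c hc).1) i j
  obtain ⟨e1, e2⟩ := Xl_H0 R l (fun c hc => (hl c hc).2) h h'
  have t := chiM_sq (sw i j) (sps l)
  have t' : theA (sps l) (i, j) * theA (sps l) (i, j) = 1 := t
  unfold Tl
  rw [p1, p2, p3, e1, e2]
  constructor
  · linear_combination ((l.map (ep ((i + 1, j), (i + 1, j)))).prod *
      Xl P R l ((i + 1, j), (i + 1, j))) * t'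
  · linear_combination (-((l.map (ep ((i + 1, j), (i + 1, j)))).prod *
      Xl P R l ((i + 1, j + 1), (i + 1, j)))) * t'

theorem Sl_V {P : Finset Site} (R : Multiset Site) (l : List Cn)
    (hl : ∀ c ∈ l, c.1 ∈ cnr c.2 ∧ c.1 ∈ Vx P) {i j : ℤ} (h : ((i, j) : Site) ∈ P ∨ ((i, j + 1) : Site) ∈ P) :
    Sl P R l ((i, j + 1), (i, j)) = √2 * Sl P R l ((i, j + 1), (i, j + 1)) -
      tauR R (i, j) * Sl P R l ((i + 1, j + 1), (i, j + 1)) ∧
    Sl P R l ((i + 1, j + 1), (i, j)) = √2 * Sl P R l ((i + 1, j + 1), (i, j + 1)) -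
      tauR R (i, j) * Sl P R l ((i, j + 1), (i, j + 1)) := by
  obtain ⟨p1, p2, p3⟩ := prod_V l (fun c hc => (hl c hc).1) i j
  obtain ⟨e1, e2⟩ := Xl_V R l (fun c hc => (hl c hc).2) h
  have t := cutF_sq (fcs l) (i, j + 1)
  unfold Sl
  rw [p1, p2, p3, e1, e2, tauR_add]
  simp only
  constructor
  · linear_combination (-((l.map (et ((i + 1, j + 1), (i, j + 1)))).prod *
      tauR R (i, j) * Xl P R l ((i + 1, j + 1), (i, j + 1)))) * t
  · ring

theorem Sl_V0 {P : Finset Site} (R : Multiset Site) (l : List Cn)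
    (hl : ∀ c ∈ l, c.1 ∈ cnr c.2 ∧ c.1 ∈ Vx P) {i j : ℤ} (h : ((i, j) : Site) ∉ P) (h' : ((i, j + 1) : Site) ∉ P) :
    Sl P R l ((i, j + 1), (i, j)) = Sl P R l ((i, j + 1), (i, j + 1)) ∧
    Sl P R l ((i + 1, j + 1), (i, j)) = Sl P R l ((i + 1, j + 1), (i, j + 1)) := by
  obtain ⟨p1, p2, p3⟩ := prod_V l (fun c hc => (hl c hc).1) i j
  obtain ⟨e1, e2⟩ := Xl_V0 R l (fun c hc => (hl c hc).2) h h'
  unfold Sl
  rw [p1, p2, e1, e2]
  exact ⟨rfl, rfl⟩

section

variable (P : Finset Site) (R : Multiset Site) (l : List Cn)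

/-- The difference of both sides of the Wick rule, as a function of the first fermion. -/
noncomputable def Ph (c : Cn) : ℝ :=
  el l * Tl P R l c -
    ∑ j : Fin l.length, (-1) ^ (j : ℕ) * Wf P R (l.eraseIdx j) * Tl P R [l[j]] c

/-- The same as seen from the horizontal edges. -/
noncomputable def Ps (c : Cn) : ℝ :=
  el l * Sl P R l c -
    ∑ j : Fin l.length, (-1) ^ (j : ℕ) * Wf P R (l.eraseIdx j) * Sl P R [l[j]] c

theorem Xl_self (hl : ∀ c ∈ l, c.1 ∈ Vx P) (k : ℕ) (hk : k < l.length) :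
    Xl P R l l[k] = QQ P (fcs (l.eraseIdx k) + R) (sps (l.eraseIdx k)) / QQ P R 0 := by
  unfold Xl
  rw [if_pos (hl _ (List.getElem_mem hk)), fcs_erase l k hk, sps_erase l k hk,
    Multiset.cons_add, QQ_dis_pair, QQ_spin_pair]

theorem Xl_one {c : Cn} (hc : c.1 ∈ Vx P) : Xl P R [c] c = 1 := by
  unfold Xl
  rw [if_pos hc]
  have e1 : fcs [c] + R = c.2 ::ₘ R := by
    rw [fcs_cons, Multiset.cons_add]
    simp [fcs]
  have e2 : sps [c] = c.1 ::ₘ 0 := rfl
  rw [e1, e2, QQ_dis_pair, QQ_spin_pair]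
  exact div_self (QQ_pos P R).ne'

open Classical in
theorem Sl_eq (hnd : l.Nodup) (c : Cn) : Sl P R l c = Tl P R l c * if c ∈ l then -1 else 1 := by
  unfold Sl Tl
  rw [prod_et l hnd c]
  ring

theorem Ph_eq_Ps (hl : ∀ c ∈ l, c.1 ∈ cnr c.2 ∧ c.1 ∈ Vx P) (hnd : l.Nodup) (c : Cn) :
    Ph P R l c = Ps P R l c := by
  classical
  unfold Ph Ps
  have hone : ∀ j : Fin l.length, Sl P R [l[j]] c = Tl P R [l[j]] c * if c = l[j] then -1 else 1 := by
    intro j
    rw [Sl_eq P R [l[j]] (List.nodup_singleton _) c]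
    simp only [List.mem_singleton]
  simp only [hone]
  rw [Sl_eq P R l hnd c]
  by_cases hc : c ∈ l
  · obtain ⟨k, hk, rfl⟩ := List.mem_iff_getElem.1 hc
    rw [if_pos hc]
    have hsum : ∑ j : Fin l.length, (-1) ^ (j : ℕ) * Wf P R (l.eraseIdx j) *
        (Tl P R [l[j]] l[k] * if l[k] = l[j] then -1 else 1) =
        ∑ j : Fin l.length, (-1) ^ (j : ℕ) * Wf P R (l.eraseIdx j) * Tl P R [l[j]] l[k] -
        2 * ((-1) ^ k * Wf P R (l.eraseIdx k) * Tl P R [l[k]] l[k]) := by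
      have e : ∀ j : Fin l.length, (-1) ^ (j : ℕ) * Wf P R (l.eraseIdx j) *
          (Tl P R [l[j]] l[k] * if l[k] = l[j] then -1 else 1) =
          (-1) ^ (j : ℕ) * Wf P R (l.eraseIdx j) * Tl P R [l[j]] l[k] -
          if j = ⟨k, hk⟩ then 2 * ((-1) ^ (j : ℕ) * Wf P R (l.eraseIdx j) * Tl P R [l[j]] l[k]) else 0 := by
        intro j
        by_cases hj : j = ⟨k, hk⟩
        · subst hj
          rw [if_pos rfl]
          have : (l[k] = l[(⟨k, hk⟩ : Fin l.length)]) := rfl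
          rw [if_pos this]; ring
        · have : l[k] ≠ l[j] := by
            intro h
            apply hj
            have := (List.Nodup.getElem_inj_iff hnd (hi := hk) (hj := j.2)).1 h
            exact Fin.ext this.symm
          rw [if_neg this, if_neg hj]; ring
      rw [sum_congr rfl fun j _ => e j, sum_sub_distrib]
      congr 1
      rw [sum_ite_eq' univ (⟨k, hk⟩ : Fin l.length)]
      rw [if_pos (mem_univ _)]
      rfl
    rw [hsum]
    have h1 : Tl P R l l[k] = ep l[k] l[k] * ((l.eraseIdx k).map (ep l[k])).prod *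
        (QQ P (fcs (l.eraseIdx k) + R) (sps (l.eraseIdx k)) / QQ P R 0) := by
      unfold Tl
      rw [Xl_self P R l (fun c hc => (hl c hc).2) k hk, map_split (ep l[k]) l k hk]
    have h2 : Tl P R [l[k]] l[k] = ep l[k] l[k] := by
      unfold Tl
      rw [Xl_one P R (hl _ (List.getElem_mem hk)).2]
      simp
    have h3 := el_erase l (fun c hc => (hl c hc).1) hnd k hk
    rw [h1, h2]
    unfold Wf
    linear_combination (2 * ep l[k] l[k] *
      (QQ P (fcs (l.eraseIdx k) + R) (sps (l.eraseIdx k)) / QQ P R 0)) * h3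
  · rw [if_neg hc, mul_one]
    congr 1
    refine sum_congr rfl fun j _ => ?_
    have : c ≠ l[j] := by
      rintro rfl
      exact hc (List.getElem_mem j.2)
    rw [if_neg this, mul_one]

theorem Ph_spr (hl : ∀ c ∈ l, c.1 ∈ cnr c.2 ∧ c.1 ∈ Vx P) (hnd : l.Nodup) :
    Spr P (tauR R) (fun _ => 1) (fun f => Ph P R l (f, f))
      (fun f => Ph P R l ((f.1 + 1, f.2), f)) (fun f => Ph P R l ((f.1, f.2 + 1), f))
      (fun f => Ph P R l ((f.1 + 1, f.2 + 1), f)) := by
  have hz : ∀ c : Cn, c.1 ∉ Vx P → Ph P R l c = 0 := by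
    intro c hc
    unfold Ph Tl Xl
    simp only [if_neg hc, mul_zero, sum_const_zero, sub_zero]
  have hl1 : ∀ j : Fin l.length, ∀ c ∈ [l[j]], c.1 ∈ cnr c.2 ∧ c.1 ∈ Vx P := by
    intro j c hc
    rw [List.mem_singleton] at hc
    subst hc
    exact hl _ (List.getElem_mem j.2)
  refine ⟨fun f => cutS_sq _ _, fun f => by norm_num, fun i j h => hz _ h, fun i j h => hz _ h,
    fun i j h => hz _ h, fun i j h => hz _ h, ?_, ?_, ?_, ?_⟩
  · intro i j h
    simp only [Ph_eq_Ps P R l hl hnd]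
    unfold Ps
    obtain ⟨e1, e2⟩ := Sl_V R l hl h
    constructor
    · rw [e1, lin_sum univ (fun k : Fin l.length => (-1) ^ (k : ℕ) * Wf P R (l.eraseIdx k)) _ _ _ _ _
        fun k => (Sl_V R [l[k]] (hl1 k) h).1]
      ring
    · rw [e2, lin_sum univ (fun k : Fin l.length => (-1) ^ (k : ℕ) * Wf P R (l.eraseIdx k)) _ _ _ _ _
        fun k => (Sl_V R [l[k]] (hl1 k) h).2]
      ring
  · intro i j h h'
    simp only [Ph_eq_Ps P R l hl hnd]
    unfold Ps
    obtain ⟨e1, e2⟩ := Sl_V0 R l hl h h'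
    constructor
    · rw [e1, sum_congr rfl fun k _ => by rw [(Sl_V0 R [l[k]] (hl1 k) h h').1]]
    · rw [e2, sum_congr rfl fun k _ => by rw [(Sl_V0 R [l[k]] (hl1 k) h h').2]]
  · intro i j h
    simp only [one_mul]
    unfold Ph
    obtain ⟨e1, e2⟩ := Tl_H R l hl h
    constructor
    · rw [e1, lin_sum univ (fun k : Fin l.length => (-1) ^ (k : ℕ) * Wf P R (l.eraseIdx k)) _ _ _ √2 1
        fun k => by rw [(Tl_H R [l[k]] (hl1 k) h).1, one_mul]]
      ring
    · rw [e2, lin_sum univ (fun k : Fin l.length => (-1) ^ (k : ℕ) * Wf P R (l.eraseIdx k))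
        (fun k => Tl P R [l[k]] ((i + 1, j + 1), (i + 1, j)))
        (fun k => Tl P R [l[k]] ((i + 1, j), (i + 1, j))) _
        (-√2) (-1) fun k => by rw [(Tl_H R [l[k]] (hl1 k) h).2]; ring]
      ring
  · intro i j h h'
    simp only [one_mul]
    unfold Ph
    obtain ⟨e1, e2⟩ := Tl_H0 R l hl h h'
    constructor
    · rw [e1, sum_congr rfl fun k _ => by rw [(Tl_H0 R [l[k]] (hl1 k) h h').1]]
    · rw [e2, sum_congr rfl fun k _ => by rw [(Tl_H0 R [l[k]] (hl1 k) h h').2]]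
      simp only [mul_neg, sum_neg_distrib]
      ring

end

/-- The Wick rule. -/
theorem wick (hU : SUnq) {P : Finset Site} (hk : NC P) (R : Multiset Site) (c : Cn) (l : List Cn)
    (hl : ∀ c' ∈ c :: l, c'.1 ∈ cnr c'.2 ∧ c'.1 ∈ Vx P) (hnd : (c :: l).Nodup) :
    Wf P R (c :: l) =
      ∑ j : Fin l.length, (-1) ^ (j : ℕ) * Wf P R [c, l[j]] *
        Wf P R (l.eraseIdx j) := by
  have hl' : ∀ c' ∈ l, c'.1 ∈ cnr c'.2 ∧ c'.1 ∈ Vx P := fun c' h =>
    hl c' (List.mem_cons_of_mem _ h)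
  have hc := hl c (List.mem_cons_self ..)
  have hnd' := List.nodup_cons.1 hnd
  have h := hU _ _ _ _ _ _ _ (Ph_spr P R l hl' hnd'.2) hk (fun _ _ => rfl) c.2
  have h0 : Ph P R l c = 0 := by
    obtain ⟨v, f⟩ := c
    rcases mem_cnr.1 hc.1 with h1 | h1 | h1 | h1 <;> simp only at h1 <;> subst h1
    · exact h.1
    · exact h.2.1
    · exact h.2.2.1
    · exact h.2.2.2
  have hT : ∀ l' : List Cn, Tl P R l' c = (l'.map (ep c)).prod *
      (QQ P (c.2 ::ₘ (fcs l' + R)) (c.1 ::ₘ sps l') / QQ P R 0) := by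
    intro l'
    unfold Tl Xl
    rw [if_pos hc.2]
  have h1 : el l * Tl P R l c = Wf P R (c :: l) := by
    rw [hT]
    unfold Wf
    rw [fcs_cons, sps_cons, Multiset.cons_add]
    simp only [el]
    ring
  have h2 : ∀ j : Fin l.length, Tl P R [l[j]] c = Wf P R [c, l[j]] := by
    intro j
    rw [hT]
    unfold Wf
    rw [fcs_cons c, sps_cons c, Multiset.cons_add]
    simp only [el, List.map_nil, List.prod_nil, List.map_cons, List.prod_cons]
    ring
  unfold Ph at h0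
  rw [h1] at h0
  simp only [h2] at h0
  rw [sub_eq_zero.1 h0]
  exact sum_congr rfl fun j _ => by ring

/-- The correlations of fermions are Pfaffians. -/
theorem Wf_Pf (hU : SUnq) {P : Finset Site} (hk : NC P) (R : Multiset Site) (l : List Cn)
    (hl : ∀ c ∈ l, c.1 ∈ cnr c.2 ∧ c.1 ∈ Vx P) (hnd : l.Nodup) (hev : Even l.length) :
    Wf P R l = Pf (fun c c' => Wf P R [c, c']) l := by
  induction hn : l.length using Nat.strong_induction_on generalizing l with
  | _ n ih =>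
    cases l with
    | nil =>
      rw [Pf]
      unfold Wf
      have e1 : fcs ([] : List Cn) + R = R := by simp [fcs]
      have e2 : sps ([] : List Cn) = 0 := by simp [sps]
      rw [e1, e2]
      simp only [el, one_mul]
      exact div_self (QQ_pos _ R).ne'
    | cons c l =>
      rw [wick hU hk R c l hl hnd, Pf]
      refine sum_congr rfl fun j _ => ?_
      rw [ih (l.eraseIdx j).length ?_ _ ?_ ?_ ?_ rfl]
      · have := j.2
        rw [← hn, List.length_eraseIdx, if_pos j.2, List.length_cons]; omega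
      · exact fun c' h => hl c' (List.mem_cons_of_mem _ ((List.eraseIdx_sublist l j).subset h))
      · exact (List.nodup_cons.1 hnd).2.sublist (List.eraseIdx_sublist l j)
      · have h2 : (l.eraseIdx j).length + 2 = (c :: l).length := by
          have := j.2
          rw [List.length_eraseIdx, if_pos j.2, List.length_cons]; omega
        rw [← h2] at hev
        exact (Nat.even_add.1 hev).2 even_two

theorem pf (hU : SUnq) : SPf := fun _ hk R l hl hnd hev => Wf_Pf hU hk R l hl hnd hev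

end Vale.Agent.P144S.W
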