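import Vale.Agent.P144S.W.Wick
import Vale.Agent.P144.H436.TipC2

/-!
The limits of the mixed correlations for the plus boundary condition from the limits of the
kernels.
-/

namespace Vale.Agent.P144S.W

open Finset Filter Topology Vale.Agent.P144 Vale.Agent.P144Q
open Vale.Agent.P144.AL (Cn cnr el fcs sps mem_cnr ep Pf flat flat_cons cenK fcs_cons sps_cons)

/-- The sign of an energy. -/
noncomputable def se (j : Fin 2) : ℝ := if j = 0 then 1 else -1

theorem ep_ce (v : Site) (j : Fin 2) : ep (ce v j false) (ce v j true) = se j := by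
  obtain ⟨a, b⟩ := v
  unfold ep ce se dir
  by_cases hj : j = 0 <;> simp [hj]

theorem ce_cnr (v : Site) (j : Fin 2) (b : Bool) : (ce v j b).1 ∈ cnr (ce v j b).2 := by
  obtain ⟨a, c⟩ := v
  unfold ce dir
  by_cases hj : j = 0 <;> cases b <;> simp [hj, mem_cnr]

/-- Two sites are not close. -/
def Far (v w : Site) : Prop := 2 < |v.1 - w.1| + |v.2 - w.2|

theorem ep_four {v w : Site} (i j : Fin 2) (h : Far v w) :
    ep (ce v i false) (ce w j false) * ep (ce v i false) (ce w j true) *
      (ep (ce v i true) (ce w j false) * ep (ce v i true) (ce w j true)) = 1 := by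
  obtain ⟨a, b⟩ := v
  obtain ⟨c, d⟩ := w
  have h' : ¬ (a - c ≤ 1 ∧ c - a ≤ 1 ∧ b - d ≤ 1 ∧ d - b ≤ 1) := by
    rintro ⟨h1, h2, h3, h4⟩
    have h5 : |a - c| ≤ 1 := abs_le.2 ⟨by omega, h1⟩
    have h6 : |b - d| ≤ 1 := abs_le.2 ⟨by omega, h3⟩
    unfold Far at h
    simp only at h
    omega
  unfold ep ce dir
  by_cases hi : i = 0 <;> by_cases hj : j = 0 <;>
    simp only [hi, hj, if_true, if_false, Prod.mk_add_mk, add_zero, Bool.false_eq_true] <;>
    split_ifs <;> first | (exfalso; omega) | norm_num

theorem ce_ne {v w : Site} (i j : Fin 2) (b b' : Bool) (h : Far v w) : ce v i b ≠ ce w j b' := by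
  obtain ⟨a, b⟩ := v
  obtain ⟨c, d⟩ := w
  intro e
  have e1 := congrArg Prod.fst e
  unfold Far at h
  unfold ce dir at e1
  simp only at h
  rcases abs_cases (a - c) with h1 | h1 <;> rcases abs_cases (b - d) with h2 | h2 <;>
    split_ifs at e1 <;> simp only [Prod.mk_add_mk, Prod.mk.injEq] at e1 <;> omega

theorem ce_ne' (v : Site) (j : Fin 2) : ce v j false ≠ ce v j true := by
  obtain ⟨a, b⟩ := v
  unfold ce dir
  by_cases hj : j = 0 <;> simp [hj]

section

variable {m : ℕ} (v : Fin m → Site) (j : Fin m → Fin 2)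

/-- The corner of a label. -/
def cl (x : Fin m × Bool) : Cn := ce (v x.1) (j x.1) x.2

/-- The labels. -/
def lab (ks : List (Fin m)) : List (Fin m × Bool) :=
  flat (fun k => (k, false)) (fun k => (k, true)) ks

theorem lab_cons (k : Fin m) (ks : List (Fin m)) :
    lab (k :: ks) = (k, false) :: (k, true) :: lab ks := rfl

theorem mem_lab {ks : List (Fin m)} {x : Fin m × Bool} : x ∈ lab ks ↔ x.1 ∈ ks := by
  obtain ⟨k, b⟩ := x
  unfold lab flat
  cases b <;> simp

theorem lab_nodup {ks : List (Fin m)} (h : ks.Nodup) : (lab ks).Nodup := by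
  induction ks with
  | nil => exact List.nodup_nil
  | cons k ks ih =>
    have h' := List.nodup_cons.1 h
    rw [lab_cons, List.nodup_cons, List.nodup_cons, List.mem_cons, mem_lab, mem_lab]
    exact ⟨by simp [h'.1], h'.1, ih h'.2⟩

theorem lab_len (ks : List (Fin m)) : (lab ks).length = 2 * ks.length := AL.flat_length _ _ _

theorem lab_pair {ks : List (Fin m)} {k : Fin m} (hk : k ∈ ks) :
    [(k, false), (k, true)].Sublist (lab ks) := by
  induction ks with
  | nil => simp at hk
  | cons l ks ih =>
    rw [lab_cons]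
    rcases List.mem_cons.1 hk with rfl | h
    · exact ((List.nil_sublist _).cons_cons _).cons_cons _
    · exact ((ih h).cons _).cons _

/-- The sign of a label. -/
noncomputable def wt (x : Fin m × Bool) : ℝ := if x.2 then se (j x.1) else 1

variable {v}

theorem cl_inj (hf : ∀ k l, k ≠ l → Far (v k) (v l)) : Function.Injective (cl v j) := by
  rintro ⟨k, b⟩ ⟨l, b'⟩ e
  by_cases h : k = l
  · subst h
    cases b <;> cases b'
    · rfl
    · exact absurd e (ce_ne' _ _)
    · exact absurd e.symm (ce_ne' _ _)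
    · rfl
  · exact absurd e (ce_ne _ _ _ _ (hf k l h))

theorem el_lab (hf : ∀ k l, k ≠ l → Far (v k) (v l)) {ks : List (Fin m)} (h : ks.Nodup) :
    el ((lab ks).map (cl v j)) = ((lab ks).map (wt j)).prod := by
  induction ks with
  | nil => rfl
  | cons k ks ih =>
    have h' := List.nodup_cons.1 h
    have key : ∀ s : List (Fin m), k ∉ s →
        (((lab s).map (cl v j)).map (ep (cl v j (k, false)))).prod *
          (((lab s).map (cl v j)).map (ep (cl v j (k, true)))).prod = 1 := by
      intro s hs
      induction s with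
      | nil => simp [lab, flat]
      | cons l s ih =>
        rw [List.mem_cons, not_or] at hs
        have e := ep_four (j k) (j l) (hf k l hs.1)
        simp only [lab_cons, List.map_cons, List.prod_cons]
        have ih := ih hs.2
        unfold cl at ih ⊢
        linear_combination (ep (ce (v k) (j k) false) (ce (v l) (j l) false) *
          ep (ce (v k) (j k) false) (ce (v l) (j l) true) *
          (ep (ce (v k) (j k) true) (ce (v l) (j l) false) *
          ep (ce (v k) (j k) true) (ce (v l) (j l) true))) * ih + e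
    simp only [lab_cons, List.map_cons, List.prod_cons, el]
    rw [ih h'.2]
    have e : ep (cl v j (k, false)) (cl v j (k, true)) = se (j k) := ep_ce _ _
    rw [e]
    have e1 : wt j (k, false) = 1 := rfl
    have e2 : wt j (k, true) = se (j k) := rfl
    rw [e1, e2]
    linear_combination (se (j k) * ((lab ks).map (wt j)).prod) * key ks h'.1

variable (v)

theorem QQ_lab (P : Finset Site) (R : Multiset Site) (ks : List (Fin m)) :
    QQ P R (sps ((lab ks).map (cl v j))) = QQ P R 0 := by
  induction ks with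
  | nil => rfl
  | cons k ks ih =>
    rw [lab_cons, List.map_cons, List.map_cons, sps_cons, sps_cons]
    exact (QQ_spin_pair P R _ _).trans ih

/-- The energy. -/
noncomputable def XX (k : Fin m) (σ : Config) : ℝ := sp (σ (v k)) * sp (σ (v k + dir (j k)))

theorem prod_lab (ks : List (Fin m)) (σ : Config) :
    ((fcs ((lab ks).map (cl v j))).map fun x => sp (σ x)).prod =
      (ks.map fun k => XX v j k σ).prod := by
  induction ks with
  | nil => simp [lab, flat, fcs]
  | cons k ks ih =>
    rw [lab_cons, List.map_cons, List.map_cons, fcs_cons, fcs_cons, Multiset.map_cons,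
      Multiset.map_cons, Multiset.prod_cons, Multiset.prod_cons, ih, List.map_cons, List.prod_cons,
      ← mul_assoc]
    rfl

/-- The signed kernel. -/
noncomputable def KK (P : Finset Site) (R : Multiset Site) (x y : Fin m × Bool) : ℝ :=
  wt j x * wt j y * Wf P R [cl v j x, cl v j y]

variable {v} {J : ℝ} {P : Finset Site}

theorem base (hKW : SKW) (hPf : SPf) (hJ : 0 < J) (hP : NC P) (hv : ∀ k, v k ∈ P)
    (hf : ∀ k l, k ≠ l → Far (v k) (v l)) (R : Multiset Site) {ks : List (Fin m)} (h : ks.Nodup) :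
    pl J P (fun σ => (R.map fun x => sp (σ x)).prod * (ks.map fun k => XX v j k σ).prod) =
      MM P R * Pf (KK v j P R) (lab ks) := by
  have hev : Even (lab ks).length := by rw [lab_len]; exact even_two_mul _
  have e1 : pl J P (fun σ => (R.map fun x => sp (σ x)).prod * (ks.map fun k => XX v j k σ).prod) =
      MM P (fcs ((lab ks).map (cl v j)) + R) := by
    rw [hKW J hJ P hP]
    unfold sP
    refine congrArg _ (funext fun σ => ?_)
    rw [Multiset.map_add, Multiset.prod_add, prod_lab, mul_comm]
  have e2 := hPf P hP R ((lab ks).map (cl v j)) (by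
    intro c hc
    obtain ⟨x, -, rfl⟩ := List.mem_map.1 hc
    exact ⟨ce_cnr _ _ _, cnr_mem (hv x.1) (ce_cnr (v x.1) (j x.1) false)⟩)
    ((lab_nodup h).map (cl_inj j hf)) (by rwa [List.length_map])
  have e3 := AL.Pf_scale (fun x y => Wf P R [cl v j x, cl v j y]) (wt j) (lab ks) hev
  rw [AL.Pf_map] at e2
  unfold KK
  rw [e1, e3, ← e2, ← el_lab j hf h]
  unfold Wf MM
  rw [QQ_lab]
  have h0 := (QQ_pos P 0).ne'
  have h1 := (QQ_pos P R).ne'
  have h2 := AL.el_sq ((lab ks).map (cl v j))
  field_simp
  linear_combination (-QQ P (fcs ((lab ks).map (cl v j)) + R) 0) * h2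

theorem pl_lin (J : ℝ) (P : Finset Site) (F G : Config → ℝ) (c : ℝ) :
    pl J P (fun σ => F σ - c * G σ) = pl J P F - c * pl J P G := by
  unfold pl gibbs P144.expect
  simp only
  rw [← mul_div_assoc, ← sub_div, mul_sum, ← sum_sub_distrib]
  congr 1
  exact sum_congr rfl fun T _ => by ring

theorem pl_mul (J : ℝ) (P : Finset Site) (c : ℝ) (F : Config → ℝ) :
    pl J P (fun σ => c * F σ) = c * pl J P F := by
  unfold pl gibbs P144.expect
  simp only [mul_assoc, ← Finset.mul_sum, mul_div_assoc]

theorem mix (hKW : SKW) (hPf : SPf) (hJ : 0 < J) (hP : NC P) (hv : ∀ k, v k ∈ P)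
    (hf : ∀ k l, k ≠ l → Far (v k) (v l)) (R : Multiset Site) {ks : List (Fin m)} (h : ks.Nodup)
    (t : Fin m → ℝ) :
    pl J P (fun σ => (R.map fun x => sp (σ x)).prod * (ks.map fun k => XX v j k σ - t k).prod) =
      MM P R * Pf (cenK (KK v j P R) (fun k => (k, false)) (fun k => (k, true)) t ks) (lab ks) := by
  have hM := (MM_pos P R).ne'
  have e := AL.cen_pf (L := fun F => pl J P F / MM P R)
    (fun f g c => by
      show pl J P (fun σ => f σ - c * g σ) / MM P R = _
      rw [pl_lin]; ring)
    (XX v j) t (fun σ => (R.map fun x => sp (σ x)).prod) (fun k => (k, false))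
    (fun k => (k, true)) (KK v j P R) [] [] ks
    (by rw [List.nil_append, List.append_nil]; exact lab_nodup h) (fun s hs => by
      show pl J P _ / MM P R = _
      rw [base j hKW hPf hJ hP hv hf R (h.sublist hs), mul_div_cancel_left₀ _ hM, List.nil_append,
        List.append_nil]
      rfl)
  rw [div_eq_iff hM, List.nil_append, List.append_nil] at e
  rw [e, mul_comm]
  rfl

theorem mean (hKW : SKW) (hPf : SPf) (hJ : 0 < J) (hP : NC P) (hv : ∀ k, v k ∈ P)
    (hf : ∀ k l, k ≠ l → Far (v k) (v l)) (k : Fin m) :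
    pl J P (XX v j k) = se (j k) * Wf P 0 [cl v j (k, false), cl v j (k, true)] := by
  have e := base j hKW hPf hJ hP hv hf 0 (List.nodup_singleton k)
  have e0 : MM P 0 = 1 := div_self (QQ_pos P 0).ne'
  have e1 : Pf (KK v j P 0) (lab [k]) = KK v j P 0 (k, false) (k, true) := by
    show Pf _ [(k, false), (k, true)] = _
    rw [Pf]
    simp [Pf]
  rw [e0, e1, one_mul] at e
  simp only [Multiset.map_zero, Multiset.prod_zero, List.map_cons, List.map_nil, List.prod_cons,
    List.prod_nil, one_mul, mul_one] at e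
  rw [show XX v j k = fun σ => XX v j k σ from rfl, e]
  unfold KK wt
  simp

open Classical in
theorem cen_eq (K : Fin m × Bool → Fin m × Bool → ℝ) (t : Fin m → ℝ) {ks : List (Fin m)}
    (h : ks.Nodup) (x y : Fin m × Bool) :
    cenK K (fun k => (k, false)) (fun k => (k, true)) t ks x y =
      K x y - if x.1 ∈ ks ∧ x.2 = false ∧ y = (x.1, true) then t x.1 else 0 := by
  unfold cenK
  congr 1
  rw [← List.sum_toFinset _ h]
  split_ifs with hx
  · rw [sum_eq_single x.1]
    · exact if_pos ⟨Prod.ext rfl hx.2.1, hx.2.2⟩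
    · intro l _ hl
      exact if_neg fun e => hl (congrArg Prod.fst e.1).symm
    · intro hl
      exact absurd (List.mem_toFinset.2 hx.1) hl
  · refine sum_eq_zero fun l hl => if_neg ?_
    rintro ⟨rfl, rfl⟩
    exact hx ⟨List.mem_toFinset.1 hl, rfl, rfl⟩

end

/-- The limits of the mixed correlations follow from the limits of the kernels and the
normalisation. -/
theorem asm (hKW : SKW) (hPf : SPf) : SAsmP := by
  classical
  intro J hJ D P hP hK hN p hp1
  have hp : Good0 D p := hp1.2
  obtain ⟨k3, k4⟩ := hK p hp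
  have hx : Function.Injective p.x := fun i i' h => Sum.inl_injective (hp.2.2 (by simpa using h))
  have hy : Function.Injective p.y := fun i i' h => Sum.inr_injective (hp.2.2 (by simpa using h))
  obtain ⟨g, -, hg⟩ := hN (univ.image p.x) (by
    intro z hz
    obtain ⟨i, _, rfl⟩ := mem_image.1 hz
    exact hp.1 i)
  have hg := hg P hP
  set ks := (univ : Finset (Fin p.m)).toList with hks
  have hn : ks.Nodup := nodup_toList _
  have hlen : ks.length = p.m := by rw [hks, length_toList, card_univ, Fintype.card_fin]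
  set Kz : ℝ → Fin p.m × Bool → Fin p.m × Bool → ℝ := fun a =>
    cenK (KK (fun k => fl a (p.y k)) p.j (P a) (Rq p a)) (fun k => (k, false)) (fun k => (k, true))
      (fun k => se (p.j k) * Wf (P a) 0 [cp p a k false, cp p a k true]) ks with hKz
  have hl : ∀ x y, [x, y].Sublist (lab ks) →
      ∃ c, Tendsto (fun a : ℝ => Kz a x y / a) (𝓝[>] 0) (𝓝 c) := by
    rintro ⟨k, b⟩ ⟨l, b'⟩ hxy
    simp only [hKz, cen_eq _ _ hn]
    by_cases h : k = l
    · subst h
      have hk : k ∈ ks := mem_lab.1 (hxy.subset (List.mem_cons_self ..))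
      have hb : b = false ∧ b' = true := by
        have h1 := (lab_nodup hn).sublist hxy
        cases b <;> cases b'
        · simp at h1
        · exact ⟨rfl, rfl⟩
        · exact (AL.nodup_order (lab_nodup hn) hxy (lab_pair hk)).elim
        · simp at h1
      obtain ⟨rfl, rfl⟩ := hb
      obtain ⟨c, hc⟩ := k4 k
      refine ⟨_, (hc.const_mul (se (p.j k))).congr fun a => ?_⟩
      rw [if_pos ⟨hk, rfl, rfl⟩]
      show _ = (1 * se (p.j k) * Wf (P a) (Rq p a) [cp p a k false, cp p a k true] - _) / a
      ring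
    · obtain ⟨c, hc⟩ := k3 k l h b b'
      refine ⟨_, (hc.const_mul (wt p.j (k, b) * wt p.j (l, b'))).congr fun a => ?_⟩
      rw [if_neg fun e => h (congrArg Prod.fst e.2.2).symm, sub_zero]
      show _ = (wt p.j (k, b) * wt p.j (l, b') * Wf (P a) (Rq p a) [cp p a k b, cp p a l b']) / a
      ring
  choose! kap hkap using hl
  refine ⟨_, (hg.mul (AL.Pf_tendsto (fun a x y => Kz a x y / a) kap (lab ks) hkap)).congr' ?_⟩
  have hfar : ∀ k l, k ≠ l → ∀ᶠ a in 𝓝[>] (0 : ℝ), Far (fl a (p.y k)) (fl a (p.y l)) :=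
    fun k l h => H436.far_ev AL.idt (fun e => h (hy e)) (AL.flt _) (AL.flt _) 2
  filter_upwards [hP.2, eventually_all.2 fun k => hP.1.mem AL.idt (hp.2.1 k) (AL.flt _),
    eventually_all.2 fun k => eventually_all.2 fun l => eventually_all.2 (hfar k l),
    self_mem_nhdsWithin] with a h1 h2 h3 ha
  have ha : 0 < a := ha
  have hmean : ∀ k, pl J (P a) (fun τ => sp (τ (fl a (p.y k))) *
      sp (τ (fl a (p.y k) + dir (p.j k)))) =
      se (p.j k) * Wf (P a) 0 [cp p a k false, cp p a k true] :=
    fun k => mean (v := fun k => fl a (p.y k)) p.j hKW hPf hJ h1 h2 h3 k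
  have hR : (univ.image p.x).val.map (fl a) = Rq p a := by
    rw [image_val_of_injOn hx.injOn, Multiset.map_map]
    rfl
  have e1 : (fun σ : Config => (∏ i, a ^ (-(1 / 8) : ℝ) * sp (σ (fl a (p.x i)))) *
      ∏ k, a⁻¹ * (sp (σ (fl a (p.y k))) * sp (σ (fl a (p.y k) + dir (p.j k))) -
        se (p.j k) * Wf (P a) 0 [cp p a k false, cp p a k true])) =
      fun σ => ((a ^ (-(1 / 8) : ℝ)) ^ p.n * a⁻¹ ^ p.m) *
        (((Rq p a).map fun x => sp (σ x)).prod * (ks.map fun k => XX (fun k => fl a (p.y k)) p.j k σ -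
          se (p.j k) * Wf (P a) 0 [cp p a k false, cp p a k true]).prod) := by
    funext σ
    have : ((Rq p a).map fun x => sp (σ x)).prod = ∏ i, sp (σ (fl a (p.x i))) := by
      unfold Rq H170.rM
      rw [Multiset.map_map]
      rfl
    rw [this, prod_mul_distrib, prod_mul_distrib, prod_const, prod_const, card_univ, card_univ,
      Fintype.card_fin, Fintype.card_fin, hks, Finset.prod_map_toList]
    unfold XX
    ring
  have hs : (√a)⁻¹ * (√a)⁻¹ = a⁻¹ := by rw [← mul_inv, Real.mul_self_sqrt ha.le]
  have e2 := AL.Pf_scale (Kz a) (fun _ => (√a)⁻¹) (lab ks)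
    (by rw [lab_len]; exact even_two_mul _)
  rw [List.map_const', List.prod_replicate, lab_len, pow_mul, sq, hs, hlen] at e2
  unfold corr GP
  simp only [hmean]
  rw [e1, pl_mul, mix p.j hKW hPf hJ h1 h2 h3 _ hn, hR, ← hKW J hJ _ h1, card_image_of_injective _ hx,
    card_univ, Fintype.card_fin,
    ← Real.rpow_natCast, ← Real.rpow_mul ha.le,
    show (fun x y => Kz a x y / a) = fun x y => a⁻¹ * Kz a x y from
      funext fun x => funext fun y => div_eq_inv_mul _ _, e2,
    show -(1 / 8 : ℝ) * p.n = -(p.n : ℝ) / 8 by ring]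
  ring

end Vale.Agent.P144S.W
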