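import Vale.Agent.P144S.Defs

/-!
The dual free model on the graph of the cells: basic facts, moves of a disorder, the relations.
-/

namespace Vale.Agent.P144S.W

open Finset Vale.Agent.P144
open Vale.Agent.P144.AL (Cn cnr tauR theA cutS el fcs sps NG NG_congr NG_gauge NG_flipH NG_flipV
  cut1 sw chiM mem_cnr mem_cnr' ep)

variable {P : Finset Site}

theorem mem_Vx {x : Site} : x ∈ Vx P ↔ x ∈ P ∨ ((x.1 - 1, x.2) : Site) ∈ P ∨
    ((x.1, x.2 - 1) : Site) ∈ P ∨ ((x.1 - 1, x.2 - 1) : Site) ∈ P := by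
  unfold Vx
  rw [mem_biUnion]
  constructor
  · rintro ⟨f, hf, h⟩
    rcases mem_cnr'.1 h with rfl | rfl | rfl | rfl <;> simp [hf]
  · rintro (h | h | h | h) <;> exact ⟨_, h, mem_cnr'.2 (by simp)⟩

theorem cnr_mem {f v : Site} (hf : f ∈ P) (hv : v ∈ cnr f) : v ∈ Vx P :=
  mem_biUnion.2 ⟨f, hf, hv⟩

theorem sub_Vx (P : Finset Site) : P ⊆ Vx P := fun _ h => mem_Vx.2 (Or.inl h)

theorem ih_one {x : Site} (h : x ∈ P ∨ ((x.1, x.2 - 1) : Site) ∈ P) : ih P x = 1 := if_pos h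

theorem ih_zero {x : Site} (h : x ∉ P) (h' : ((x.1, x.2 - 1) : Site) ∉ P) : ih P x = 0 :=
  if_neg (not_or.2 ⟨h, h'⟩)

theorem iv_one {x : Site} (h : x ∈ P ∨ ((x.1 - 1, x.2) : Site) ∈ P) : iv P x = 1 := if_pos h

theorem iv_zero {x : Site} (h : x ∉ P) (h' : ((x.1 - 1, x.2) : Site) ∉ P) : iv P x = 0 :=
  if_neg (not_or.2 ⟨h, h'⟩)

theorem ih_01 (P : Finset Site) (x : Site) : ih P x = 0 ∨ ih P x = 1 := by
  unfold ih; split_ifs <;> simp

theorem iv_01 (P : Finset Site) (x : Site) : iv P x = 0 ∨ iv P x = 1 := by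
  unfold iv; split_ifs <;> simp

theorem hor_of {x : Site} (h : x ∈ P ∨ ((x.1, x.2 - 1) : Site) ∈ P) : x ∈ hor (Vx P) := by
  rw [mem_hor, mem_Vx, mem_Vx]
  simp only [add_sub_cancel_right]
  tauto

theorem ver_of {x : Site} (h : x ∈ P ∨ ((x.1 - 1, x.2) : Site) ∈ P) : x ∈ ver (Vx P) := by
  rw [mem_ver, mem_Vx, mem_Vx]
  simp only [add_sub_cancel_right]
  tauto

theorem ihc_abs (P : Finset Site) (R : Multiset Site) (x : Site) : |ih P x * cutS R x| ≤ 1 := by
  rcases ih_01 P x with h | h <;> rw [h]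
  · simp
  · rw [one_mul]; exact AL.cutS_abs R x

theorem iv_abs (P : Finset Site) (x : Site) : |iv P x| ≤ 1 := by
  rcases iv_01 P x with h | h <;> rw [h] <;> simp

theorem QQ_pos (P : Finset Site) (R : Multiset Site) : 0 < QQ P R 0 := by
  unfold QQ NG
  refine sum_pos (fun T _ => ?_) ⟨∅, by simp⟩
  rw [AL.spn_zero, one_mul]
  exact AL.WW_pos (ihc_abs P R) (iv_abs P) T

theorem MM_pos (P : Finset Site) (R : Multiset Site) : 0 < MM P R :=
  div_pos (QQ_pos P R) (QQ_pos P 0)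

theorem QQ_abs_le (P : Finset Site) (R A : Multiset Site) : |QQ P R A| ≤ QQ P R 0 := by
  unfold QQ NG
  refine (abs_sum_le_sum_abs _ _).trans (sum_le_sum fun T _ => ?_)
  rw [AL.spn_zero, one_mul, abs_mul, abs_of_pos (AL.WW_pos (ihc_abs P R) (iv_abs P) T)]
  have : |AL.spn A T| = 1 := by
    rcases AL.spn_pm A T with h | h <;> rw [h] <;> simp
  rw [this, one_mul]

theorem QQ_spin_pair (P : Finset Site) (R A : Multiset Site) (u : Site) :
    QQ P R (u ::ₘ u ::ₘ A) = QQ P R A := by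
  unfold QQ NG
  refine sum_congr rfl fun T _ => ?_
  rw [AL.spn_cons, AL.spn_cons, ← mul_assoc, tv_sq, one_mul]

theorem QQ_dis_pair (P : Finset Site) (R A : Multiset Site) (r : Site) :
    QQ P (r ::ₘ r ::ₘ R) A = QQ P R A := by
  unfold QQ
  refine NG_congr (fun x _ => ?_) (fun _ _ => rfl) A
  rw [AL.cutS_cons, AL.cutS_cons, ← mul_assoc (cut1 r x), AL.cut1_sq, one_mul]

theorem QQ_spin_mid (P : Finset Site) (R A : Multiset Site) (u w : Site) :
    QQ P R (u ::ₘ w ::ₘ u ::ₘ A) = QQ P R (w ::ₘ A) := by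
  rw [Multiset.cons_swap w u A, QQ_spin_pair]

theorem QQ_spin_last (P : Finset Site) (R A : Multiset Site) (u w : Site) :
    QQ P R (w ::ₘ u ::ₘ u ::ₘ A) = QQ P R (w ::ₘ A) := by
  rw [Multiset.cons_swap w u, Multiset.cons_swap w u, QQ_spin_pair]

theorem src_one (R : Multiset Site) (g v : Site) :
    QQ P (g ::ₘ g ::ₘ R) (v ::ₘ {v}) / QQ P R 0 = 1 := by
  have : (v ::ₘ ({v} : Multiset Site)) = v ::ₘ v ::ₘ 0 := rfl
  rw [this, QQ_spin_pair, QQ_dis_pair]
  exact div_self (QQ_pos _ _).ne'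

theorem Wf_two (P : Finset Site) (R : Multiset Site) (c c' : Cn) :
    Wf P R [c, c'] = ep c c' * (QQ P (c.2 ::ₘ c'.2 ::ₘ R) (c.1 ::ₘ {c'.1}) / QQ P R 0) := by
  have e1 : el [c, c'] = ep c c' := by simp [el]
  have e2 : fcs [c, c'] + R = c.2 ::ₘ c'.2 ::ₘ R := by
    rw [AL.fcs_cons, AL.fcs_cons, Multiset.cons_add, Multiset.cons_add]
    have : fcs [] = 0 := rfl
    rw [this, zero_add]
  have e3 : sps [c, c'] = c.1 ::ₘ {c'.1} := rfl
  unfold Wf
  rw [e1, e2, e3, mul_div_assoc]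

theorem Wf_swap (P : Finset Site) (R : Multiset Site) {c c' : Cn} (hc : c.1 ∈ cnr c.2)
    (hc' : c'.1 ∈ cnr c'.2) (hne : c ≠ c') : Wf P R [c, c'] = -Wf P R [c', c] := by
  rw [Wf_two, Wf_two, Multiset.cons_swap c.2,
    show (c.1 ::ₘ {c'.1} : Multiset Site) = c'.1 ::ₘ {c.1} from Multiset.cons_swap _ _ 0]
  have h3 := AL.ep_anti hc hc' hne
  have h4 := AL.ep_sq c' c
  have h5 : ep c c' = -ep c' c := by linear_combination (-ep c c') * h4 + ep c' c * h3
  rw [h5]; ring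

/-- Moving a disorder down across a side. -/
theorem QQ_V {i j : ℤ} (h : ((i, j) : Site) ∈ P ∨ ((i, j + 1) : Site) ∈ P) (R A : Multiset Site) :
    QQ P ((i, j) ::ₘ R) A = √2 * QQ P ((i, j + 1) ::ₘ R) A -
      cutS R (i, j + 1) * QQ P ((i, j + 1) ::ₘ R) ((i, j + 1) ::ₘ (i + 1, j + 1) ::ₘ A) := by
  classical
  have h' : ((i, j + 1) : Site) ∈ P ∨ ((((i, j + 1) : Site).1, ((i, j + 1) : Site).2 - 1) : Site)
      ∈ P := by simpa using h.symm
  unfold QQ
  have h1 : ih P (i, j + 1) * cutS ((i, j + 1) ::ₘ R) (i, j + 1) = cutS R (i, j + 1) := by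
    rw [AL.cutS_cons, ih_one h']
    have : cut1 (i, j + 1) (i, j + 1) = 1 := by unfold cut1; rw [if_neg (by simp)]
    rw [this, one_mul, one_mul]
  rw [← h1]
  refine NG_flipH (a := fun x => ih P x * cutS ((i, j + 1) ::ₘ R) x) (hor_of h')
    (by simp only [h1]; exact AL.cutS_pm _ _) (fun x => ?_) A
  rw [AL.cutS_cons, AL.cut1_V]
  split_ifs with hx
  · subst hx
    rw [AL.cutS_cons]; ring
  · rw [AL.cutS_cons]

/-- Moving a disorder vertically where there is no side. -/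
theorem QQ_V0 {i j : ℤ} (h : ((i, j) : Site) ∉ P) (h' : ((i, j + 1) : Site) ∉ P)
    (R A : Multiset Site) : QQ P ((i, j) ::ₘ R) A = QQ P ((i, j + 1) ::ₘ R) A := by
  unfold QQ
  refine NG_congr (fun x _ => ?_) (fun _ _ => rfl) A
  by_cases hx : x = (i, j + 1)
  · subst hx
    rw [ih_zero h' (by simpa using h), zero_mul, zero_mul]
  · rw [AL.cutS_cons, AL.cutS_cons, AL.cut1_V, if_neg hx]

open Classical in
theorem QQ_gaugeH {i j : ℤ} (R : Multiset Site) {A : Multiset Site} (hA : ∀ v ∈ A, v ∈ Vx P) :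
    QQ P ((i, j) ::ₘ R) A = chiM (sw i j) A * NG (Vx P) (fun x => ih P x * cutS ((i + 1, j) ::ₘ R) x)
      (fun x => if x = (i + 1, j) then -iv P (i + 1, j) else iv P x) A := by
  unfold QQ
  rw [NG_gauge (Vx P) _ _ (sw i j) hA]
  congr 1
  refine NG_congr (fun x _ => ?_) (fun x _ => ?_) A
  · rw [AL.cutS_cons, AL.cutS_cons, ← AL.gauge_H i j x]; ring
  · rw [AL.gauge_H' i j x]
    split_ifs with hx
    · rw [hx]; ring
    · ring

/-- Moving a disorder to the right across a side. -/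
theorem QQ_H {i j : ℤ} (h : ((i, j) : Site) ∈ P ∨ ((i + 1, j) : Site) ∈ P) (R : Multiset Site)
    {A : Multiset Site} (hA : ∀ v ∈ A, v ∈ Vx P) :
    QQ P ((i, j) ::ₘ R) A = chiM (sw i j) A * (√2 * QQ P ((i + 1, j) ::ₘ R) A -
      QQ P ((i + 1, j) ::ₘ R) ((i + 1, j) ::ₘ (i + 1, j + 1) ::ₘ A)) := by
  classical
  have h' : ((i + 1, j) : Site) ∈ P ∨ ((((i + 1, j) : Site).1 - 1, ((i + 1, j) : Site).2) : Site)
      ∈ P := by simpa using h.symm
  rw [QQ_gaugeH R hA]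
  congr 1
  rw [NG_flipV (b := iv P) (u := (i + 1, j)) (ver_of h') (Or.inl (iv_one h')) (fun x => rfl) A,
    iv_one h', one_mul]
  rfl

/-- Moving a disorder to the right where there is no side. -/
theorem QQ_H0 {i j : ℤ} (h : ((i, j) : Site) ∉ P) (h' : ((i + 1, j) : Site) ∉ P)
    (R : Multiset Site) {A : Multiset Site} (hA : ∀ v ∈ A, v ∈ Vx P) :
    QQ P ((i, j) ::ₘ R) A = chiM (sw i j) A * QQ P ((i + 1, j) ::ₘ R) A := by
  classical
  rw [QQ_gaugeH R hA]
  congr 1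
  unfold QQ
  refine NG_congr (fun _ _ => rfl) (fun x _ => ?_) A
  split_ifs with hx
  · rw [hx, iv_zero h' (by simpa using h), neg_zero]
  · rfl

/-- The correlations solve the relations. -/
theorem spr : SSpr := by
  intro P R A Z hA
  have ac : ∀ u ∈ Vx P, ∀ v ∈ u ::ₘ A, v ∈ Vx P := by
    intro u hu v hv
    rcases Multiset.mem_cons.1 hv with rfl | hv
    · exact hu
    · exact hA v hv
  have c1 : ∀ i j, chi (sw i j) (i + 1, j) = 1 := fun i j => AL.chi_pos (by unfold sw; simp)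
  have c2 : ∀ i j, chi (sw i j) (i + 1, j + 1) = -1 := fun i j => AL.chi_neg (by unfold sw; simp)
  refine ⟨fun f => AL.cutS_sq _ _, fun f => AL.chiM_sq _ _, ?_, ?_, ?_, ?_, ?_, ?_, ?_, ?_⟩
  · intro i j h; unfold xA; rw [if_neg h]
  · intro i j h; unfold xB; rw [if_neg h]
  · intro i j h; unfold xC; rw [if_neg h]
  · intro i j h; unfold xD; rw [if_neg h]
  · intro i j h
    obtain ⟨h1, h2⟩ := mem_hor.1 (hor_of (P := P) (x := (i, j + 1)) (by simpa using h.symm))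
    simp only at h2
    unfold xA xB xC xD tauR
    simp only
    rw [if_pos h1, if_pos h1, if_pos h2, if_pos h2]
    rw [QQ_V h R ((i, j + 1) ::ₘ A), QQ_V h R ((i + 1, j + 1) ::ₘ A), QQ_spin_mid, QQ_spin_last]
    constructor <;> ring
  · intro i j h h'
    unfold xA xB xC xD
    simp only
    rw [QQ_V0 h h', QQ_V0 h h']
    exact ⟨rfl, rfl⟩
  · intro i j h
    obtain ⟨h1, h2⟩ := mem_ver.1 (ver_of (P := P) (x := (i + 1, j)) (by simpa using h.symm))
    simp only at h2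
    unfold xA xB xC xD theA
    simp only
    rw [if_pos h1, if_pos h1, if_pos h2, if_pos h2]
    rw [QQ_H h R (ac _ h1), QQ_H h R (ac _ h2), QQ_spin_mid, QQ_spin_last, AL.chiM_cons,
      AL.chiM_cons, c1, c2]
    constructor <;> ring
  · intro i j h h'
    unfold xA xB xC xD theA
    simp only
    constructor
    · by_cases h1 : ((i + 1, j) : Site) ∈ Vx P
      · rw [if_pos h1, if_pos h1, QQ_H0 h h' R (ac _ h1), AL.chiM_cons, c1]
        ring
      · rw [if_neg h1, if_neg h1]; ring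
    · by_cases h2 : ((i + 1, j + 1) : Site) ∈ Vx P
      · rw [if_pos h2, if_pos h2, QQ_H0 h h' R (ac _ h2), AL.chiM_cons, c2]
        ring
      · rw [if_neg h2, if_neg h2]; ring

end Vale.Agent.P144S.W
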